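import Vale.Agent.P174.GR.Final
import Vale.Agent.P174.Central

namespace Vale.Agent.Results.P174.UnitaryQuotientExtensions

open Vale.Agent.P174

theorem result :
    (∀ (G : Type) [Group G], (UApprox G ∨ ∀ a b : G, a * b = b * a) → CApprox G) ∧
    (∀ (G : Type) [Group G], CApprox G → ∀ (m n : ℕ) (w : Fin m → M G (Fin n)),
      LinearIndependent ℚ (fun i => row ℚ (w i)) → Solvable w) ∧
    (∀ (p : ℕ), p.Prime → ∀ (G : Type) [Group G] (N : Subgroup G) [N.Normal],
      Howie p N → ResP p (G ⧸ N) → Howie p G) ∧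
    (∀ (p : ℕ), p.Prime → ∀ (G : Type) [Group G] (N : Subgroup G) [N.Normal],
      CApprox N → ResP p (G ⧸ N) → Howie p G) ∧
    (∀ (G : Type) [Group G] (N : Subgroup G) [N.Normal],
      CApprox N →
      (∀ b : ℕ, ∃ p, b ≤ p ∧ p.Prime ∧ ResP p (G ⧸ N)) →
      ∀ (m n : ℕ) (w : Fin m → M G (Fin n)),
        LinearIndependent ℚ (fun i => row ℚ (w i)) → Solvable w) := by
  refine ⟨?_, fun G _ hG m n w hw => hG.solvable w hw, fun p hp G _ N _ hN hQ => ?_,
    fun p hp G _ N _ hN hQ => ?_, fun G _ N _ hN hQ m n w hw => ?_⟩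
  · intro G _ h
    rcases h with hU | hab
    · exact hU.capprox
    · letI : CommGroup G := { (inferInstance : Group G) with mul_comm := hab }
      exact capprox_comm G
  · haveI : Fact p.Prime := ⟨hp⟩
    exact Howie.extension N hN hQ
  · haveI : Fact p.Prime := ⟨hp⟩
    exact Howie.extension N hN.howie hQ
  · refine nonsingular_solvable (fun b => ?_) w hw
    obtain ⟨p, hb, hp, hres⟩ := hQ b
    haveI : Fact p.Prime := ⟨hp⟩
    exact ⟨p, hb, hp, Howie.extension N hN.howie hres⟩

end Vale.Agent.Results.P174.UnitaryQuotientExtensions
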